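import Vale.Agent.P050.R2.H738.GL

set_option linter.all false

/-!
# Dense targets: the clean pair bound with marks

`cs_weight`: Cauchy-Schwarz with a signed weight. `mark_path`: a mark (one-body function in `L²`)
and one clean arc with `k` edges. `mark_mark`: two marks. All other edges in absolute value.
-/

open MeasureTheory Finset

namespace Vale.Agent.P050.R2.H559.Marks

open Vale.Agent.P050.R2.H738

variable {V : Type*} [Fintype V] [DecidableEq V] {Ω : Type*} [MeasurableSpace Ω]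
variable {U : Sym2 Ω → ℝ} {κ : ℝ}
variable (μ : Measure Ω) [IsProbabilityMeasure μ]

/-- optimisation of the weight in the arithmetic-geometric mean inequality -/
lemma opt {x A B : ℝ} (hA : 0 ≤ A) (hB : 0 ≤ B)
    (h : ∀ t : ℝ, 0 < t → x ≤ 1 / 2 * (t * A + t⁻¹ * B)) : x ≤ √A * √B := by
  rcases hA.eq_or_lt with rfl | hA'
  · rw [Real.sqrt_zero, zero_mul]
    refine le_of_forall_pos_le_add fun e he => ?_
    have h1 := h ((B + 1) / e) (by positivity)
    have h2 : ((B + 1) / e)⁻¹ * B ≤ e := by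
      rw [inv_div, div_mul_eq_mul_div, div_le_iff₀ (by linarith only [hB])]
      nlinarith only [he, hB]
    have h3 : 0 ≤ ((B + 1) / e)⁻¹ * B := by positivity
    rw [mul_zero, zero_add] at h1
    linarith only [h1, h2, h3]
  · rcases hB.eq_or_lt with rfl | hB'
    · rw [Real.sqrt_zero, mul_zero]
      refine le_of_forall_pos_le_add fun e he => ?_
      have h1 := h (e / (A + 1)) (by positivity)
      have h2 : e / (A + 1) * A ≤ e := by
        rw [div_mul_eq_mul_div, div_le_iff₀ (by linarith only [hA])]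
        nlinarith only [he, hA]
      have h3 : 0 ≤ e / (A + 1) * A := by positivity
      rw [mul_zero, add_zero] at h1
      linarith only [h1, h2, h3]
    · have ha : 0 < √A := Real.sqrt_pos.mpr hA'
      have hb : 0 < √B := Real.sqrt_pos.mpr hB'
      have h1 := h (√B / √A) (div_pos hb ha)
      refine h1.trans (le_of_eq ?_)
      have e1 : A = √A * √A := (Real.mul_self_sqrt hA).symm
      have e2 : B = √B * √B := (Real.mul_self_sqrt hB).symm
      set p := √A with hp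
      set q := √B with hq
      rw [e1, e2]
      field_simp
      ring

/-- the arithmetic form: two bounded functions, a weight `w` and a bounded factor `R` -/
lemma am_weight {f g w R : (V → Ω) → ℝ} (hf : BM f) (hg : BM g) (hw : BM w) (hR : BM R)
    {C A B : ℝ} (hC0 : 0 ≤ C) (hC : ∀ z, |R z| ≤ C)
    (hA : ∫ z, f z ^ 2 * |w z| ∂(piM V μ) ≤ A) (hB : ∫ z, g z ^ 2 * |w z| ∂(piM V μ) ≤ B)
    {t : ℝ} (ht : 0 < t) :
    |∫ z, f z * (g z * (w z * R z)) ∂(piM V μ)| ≤ C * (1 / 2 * (t * A + t⁻¹ * B)) := by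
  have hpt : ∀ z, |f z * (g z * (w z * R z))| ≤
      C * (1 / 2 * (t * (f z ^ 2 * |w z|) + t⁻¹ * (g z ^ 2 * |w z|))) := by
    intro z
    have h1 : |f z * g z| ≤ 1 / 2 * (t * f z ^ 2 + t⁻¹ * g z ^ 2) := by
      rw [abs_mul]
      have h2 : 0 ≤ t * (|f z| - t⁻¹ * |g z|) ^ 2 := by (clear * - ht; positivity)
      have h3 : t * (|f z| - t⁻¹ * |g z|) ^ 2 =
          t * |f z| ^ 2 + t⁻¹ * |g z| ^ 2 - 2 * (|f z| * |g z|) := by
        have := ht.ne'
        field_simp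
        ring
      rw [h3, sq_abs, sq_abs] at h2
      linarith only [h2]
    calc |f z * (g z * (w z * R z))| = |R z| * (|f z * g z| * |w z|) := by
          rw [← abs_mul, ← abs_mul]; congr 1; ring
      _ ≤ C * ((1 / 2 * (t * f z ^ 2 + t⁻¹ * g z ^ 2)) * |w z|) :=
          mul_le_mul (hC z) (mul_le_mul_of_nonneg_right h1 (abs_nonneg _))
            (mul_nonneg (abs_nonneg _) (abs_nonneg _)) hC0
      _ = _ := by ring
  have b1 : BM (fun z => f z ^ 2 * |w z|) := (hf.pow 2).mul hw.abs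
  have b2 : BM (fun z => g z ^ 2 * |w z|) := (hg.pow 2).mul hw.abs
  have hbmR : BM (fun z : V → Ω =>
      C * (1 / 2 * (t * (f z ^ 2 * |w z|) + t⁻¹ * (g z ^ 2 * |w z|)))) :=
    (BM.const _).mul ((BM.const _).mul (((BM.const _).mul b1).add ((BM.const _).mul b2)))
  calc |∫ z, f z * (g z * (w z * R z)) ∂(piM V μ)|
      ≤ ∫ z, |f z * (g z * (w z * R z))| ∂(piM V μ) := abs_integral_le_integral_abs
    _ ≤ ∫ z, C * (1 / 2 * (t * (f z ^ 2 * |w z|) + t⁻¹ * (g z ^ 2 * |w z|))) ∂(piM V μ) :=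
        integral_mono (((hf.mul (hg.mul (hw.mul hR))).abs).integrable _)
          (hbmR.integrable _) hpt
    _ = C * (1 / 2 * (t * ∫ z, f z ^ 2 * |w z| ∂(piM V μ) +
          t⁻¹ * ∫ z, g z ^ 2 * |w z| ∂(piM V μ))) := by
        rw [integral_const_mul, integral_const_mul, integral_add, integral_const_mul,
          integral_const_mul]
        · exact ((BM.const _).mul b1).integrable _
        · exact ((BM.const _).mul b2).integrable _
    _ ≤ C * (1 / 2 * (t * A + t⁻¹ * B)) := by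
        have h1 : 0 ≤ t⁻¹ := (inv_pos.mpr ht).le
        have h2 := ht.le
        (clear * - hA hB h1 h2 hC0; gcongr)

/-- Cauchy-Schwarz with a signed weight and a bounded factor -/
lemma cs_weight {f g w R : (V → Ω) → ℝ} (hf : BM f) (hg : BM g) (hw : BM w) (hR : BM R)
    {C A B : ℝ} (hC0 : 0 ≤ C) (hC : ∀ z, |R z| ≤ C)
    (hA : ∫ z, f z ^ 2 * |w z| ∂(piM V μ) ≤ A) (hB : ∫ z, g z ^ 2 * |w z| ∂(piM V μ) ≤ B) :
    |∫ z, f z * (g z * (w z * R z)) ∂(piM V μ)| ≤ C * (√A * √B) := by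
  have hA0 : 0 ≤ A := le_trans (integral_nonneg fun z => by positivity) hA
  have hB0 : 0 ≤ B := le_trans (integral_nonneg fun z => by positivity) hB
  rcases hC0.eq_or_lt with hC1 | hC1
  · have := am_weight μ hf hg hw hR hC0 hC hA hB one_pos
    rw [← hC1, zero_mul] at this ⊢
    exact this
  · have h1 : |∫ z, f z * (g z * (w z * R z)) ∂(piM V μ)| / C ≤ √A * √B := by
      apply opt hA0 hB0
      intro t ht
      rw [div_le_iff₀ hC1, mul_comm]
      exact am_weight μ hf hg hw hR hC0 hC hA hB ht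
    rw [div_le_iff₀ hC1, mul_comm] at h1
    exact h1

/-- a mark and the edges of a connected piece -/
lemma mark_sq (hU : Good U 1) (hκ0 : 0 ≤ κ) (hκ : ∀ s, ∫ t, |two U s t| ∂μ ≤ κ)
    {X : Finset V} {b : V} (hbX : b ∈ X)
    {F : Finset (Sym2 V)} (hF : ∀ e ∈ F, ∀ v ∈ e, v ∈ X)
    (hr : ∀ x ∈ X, (gr F).Reachable b x) {g : Ω → ℝ} (hg : BM g) :
    ∫ z, g (z b) ^ 2 * |wt U F z| ∂(piM V μ) ≤ κ ^ (X.card - 1) * ∫ s, g s ^ 2 ∂μ := by
  have hgb : BM (fun z : V → Ω => g (z b)) := hg.comp (measurable_pi_apply b)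
  have h1 := forest_weight μ hU hκ0 hκ hF
    (R := {b}) (fun x hx => ⟨b, mem_singleton_self b, hr x hx⟩) (hgb.pow 2)
    (fun z => sq_nonneg _)
    (by
      intro x hx hxr z y
      rw [mem_singleton] at hxr
      show g (Function.update z x y b) ^ 2 = g (z b) ^ 2
      rw [Function.update_of_ne (Ne.symm hxr)])
  rw [card_sdiff_of_subset (singleton_subset_iff.mpr hbX), card_singleton,
    integral_eval μ b (g := fun s => g s ^ 2) (hg.pow 2)] at h1
  exact h1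

/-- two marks, at `a` and at `b` -/
theorem mark_mark (hU : Good U 1) (hκ0 : 0 ≤ κ) (hκ : ∀ s, ∫ t, |two U s t| ∂μ ≤ κ)
    {X : Finset V} {a b : V} (haX : a ∈ X) (hbX : b ∈ X)
    {F : Finset (Sym2 V)} (hF : ∀ e ∈ F, ∀ v ∈ e, v ∈ X)
    (hr : ∀ x ∈ X, (gr F).Reachable a x) {g g' : Ω → ℝ} (hg : BM g) (hg' : BM g')
    {R : (V → Ω) → ℝ} {C : ℝ} (hR : BM R) (hC0 : 0 ≤ C) (hC : ∀ z, |R z| ≤ C) :
    |∫ z, g (z a) * (g' (z b) * (wt U F z * R z)) ∂(piM V μ)| ≤
      C * (κ ^ (X.card - 1) * (√(∫ s, g s ^ 2 ∂μ) * √(∫ s, g' s ^ 2 ∂μ))) := by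
  have h1 := mark_sq μ hU hκ0 hκ haX hF hr hg
  have h2 := mark_sq μ hU hκ0 hκ hbX hF (fun x hx => (hr b hbX).symm.trans (hr x hx)) hg'
  have hga : BM (fun z : V → Ω => g (z a)) := hg.comp (measurable_pi_apply a)
  have hgb : BM (fun z : V → Ω => g' (z b)) := hg'.comp (measurable_pi_apply b)
  refine (cs_weight μ hga hgb (hU.bm_wt F) hR hC0 hC h1 h2).trans (le_of_eq ?_)
  have hk : 0 ≤ κ ^ (X.card - 1) := pow_nonneg hκ0 _
  rw [Real.sqrt_mul hk, Real.sqrt_mul hk]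
  have h3 : √(κ ^ (X.card - 1)) * √(κ ^ (X.card - 1)) = κ ^ (X.card - 1) :=
    Real.mul_self_sqrt hk
  calc C * (√(κ ^ (X.card - 1)) * √(∫ s, g s ^ 2 ∂μ) *
        (√(κ ^ (X.card - 1)) * √(∫ s, g' s ^ 2 ∂μ)))
      = C * ((√(κ ^ (X.card - 1)) * √(κ ^ (X.card - 1))) *
        (√(∫ s, g s ^ 2 ∂μ) * √(∫ s, g' s ^ 2 ∂μ))) := by ring
    _ = _ := by rw [h3]

/-- two marks, arithmetic form -/
theorem mark_mark_am (hU : Good U 1) (hκ0 : 0 ≤ κ) (hκ : ∀ s, ∫ t, |two U s t| ∂μ ≤ κ)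
    {X : Finset V} {a b : V} (haX : a ∈ X) (hbX : b ∈ X)
    {F : Finset (Sym2 V)} (hF : ∀ e ∈ F, ∀ v ∈ e, v ∈ X)
    (hr : ∀ x ∈ X, (gr F).Reachable a x) {g g' : Ω → ℝ} (hg : BM g) (hg' : BM g')
    {R : (V → Ω) → ℝ} {C : ℝ} (hR : BM R) (hC0 : 0 ≤ C) (hC : ∀ z, |R z| ≤ C)
    {t : ℝ} (ht : 0 < t) :
    |∫ z, g (z a) * (g' (z b) * (wt U F z * R z)) ∂(piM V μ)| ≤
      C * κ ^ (X.card - 1) * (1 / 2 * (t * ∫ s, g s ^ 2 ∂μ + t⁻¹ * ∫ s, g' s ^ 2 ∂μ)) := by
  have h1 := mark_sq μ hU hκ0 hκ haX hF hr hg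
  have h2 := mark_sq μ hU hκ0 hκ hbX hF (fun x hx => (hr b hbX).symm.trans (hr x hx)) hg'
  have hga : BM (fun z : V → Ω => g (z a)) := hg.comp (measurable_pi_apply a)
  have hgb : BM (fun z : V → Ω => g' (z b)) := hg'.comp (measurable_pi_apply b)
  refine (am_weight μ hga hgb (hU.bm_wt F) hR hC0 hC h1 h2 ht).trans (le_of_eq ?_)
  ring

section path

variable {k : ℕ} {a m b : V} {p : List V} {X : Finset V} {F : Finset (Sym2 V)}
  {h : V → Ω → ℝ} {β : V → ℝ} {g : Ω → ℝ} {R : (V → Ω) → ℝ} {C : ℝ}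

/-- elimination of the interior of a clean arc -/
lemma path_kern (hU : Good U 1) (nd : p.Nodup) (ham : a ≠ m)
    (haX : a ∈ X) (hmX : m ∈ X) (hpX : ∀ v ∈ p, v ∉ X)
    (hF : ∀ e ∈ F, ∀ v ∈ e, v ∈ X) (hh : ∀ v, BM (h v))
    {G : (V → Ω) → ℝ} (hG : BM G) (hGi : ∀ u ∈ p, Ind u G)
    (hR : BM R) (hRi : ∀ u ∈ p, Ind u R) :
    ∫ z, pathProd U (fun v _ y => h v y) a p m z * (G z * (wt U F z * R z)) ∂(piM V μ) =
      ∫ x, kern μ (two U) (p.map h) (x a) (x m) * (G x * (wt U F x * R x)) ∂(piM V μ) := by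
  set D : V → (V → Ω) → Ω → ℝ := fun v _ y => h v y with hDdef
  have hD : ∀ v, BM (fun r : (V → Ω) × Ω => D v r.1 r.2) := fun v =>
    (hh v).comp (g := fun r : (V → Ω) × Ω => r.2) measurable_snd
  have hap : a ∉ p := fun hm => hpX a hm haX
  have hmp : m ∉ p := fun hm => hpX m hm hmX
  have nd1 : (a :: p ++ [m]).Nodup := by
    simp only [List.cons_append, List.nodup_cons, List.nodup_append, List.mem_append,
      List.mem_singleton, List.nodup_singleton, not_or]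
    exact ⟨⟨hap, ham⟩, nd, ⟨List.not_mem_nil, List.nodup_nil⟩,
      fun u hu v hv huv => hmp (by rw [← hv, ← huv]; exact hu)⟩
  have hwi : ∀ u, u ∉ X → Ind u (wt U F : (V → Ω) → ℝ) := by
    intro u hu
    apply wt_ind
    intro hs
    obtain ⟨e, he, hue⟩ := mem_supp.mp hs
    exact hu (hF e he u hue)
  rw [path_elim μ hU hD p a m (fun x => G x * (wt U F x * R x))
      (hG.mul ((hU.bm_wt F).mul hR)) nd1]
  · intro u hu x y
    have e1 := hGi u hu x y
    have e2 := hwi u (hpX u hu) x y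
    have e3 := hRi u hu x y
    show G _ * (wt U F _ * R _) = _
    rw [e1, e2, e3]
  · intro v hv u hu x y
    rfl

/-- the square of a clean kernel and the edges of a piece -/
lemma kern_sq (hU : Good U 1) (hκ0 : 0 ≤ κ) (hκ : ∀ s, ∫ t, |two U s t| ∂μ ≤ κ)
    (hp : p.length + 1 = k) (ham : a ≠ m) (haX : a ∈ X) (hmX : m ∈ X)
    (hF : ∀ e ∈ F, ∀ v ∈ e, v ∈ X)
    (hr : ∀ x ∈ X, ∃ r ∈ ({a, m} : Finset V), (gr F).Reachable r x)
    (hh : ∀ v, BM (h v)) (hβ : ∀ v, 0 < β v) (hh1 : ∀ v s, |h v s| ≤ β v) :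
    ∫ x, kern μ (two U) (p.map h) (x a) (x m) ^ 2 * |wt U F x| ∂(piM V μ) ≤
      κ ^ (X.card - 2) * ((p.map β).prod ^ 2 * ck μ U k) := by
  set D : V → (V → Ω) → Ω → ℝ := fun v _ y => h v y with hDdef
  have hD : ∀ v, BM (fun r : (V → Ω) × Ω => D v r.1 r.2) := fun v =>
    (hh v).comp (g := fun r : (V → Ω) × Ω => r.2) measurable_snd
  set K1 : (V → Ω) → ℝ := fun x => kern μ (two U) (p.map h) (x a) (x m) with hK1
  have hK1bm : BM K1 := (bm_kern μ hU hD p).comp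
    (g := fun x : V → Ω => (x, (x a, x m))) (by fun_prop)
  have hK1i : ∀ u, u ≠ a → u ≠ m → Ind u K1 := by
    intro u h1 h2 x y
    simp only [hK1, Function.update_of_ne h1.symm, Function.update_of_ne h2.symm]
  have h1 := forest_weight μ hU hκ0 hκ hF hr (hK1bm.pow 2) (fun z => sq_nonneg _)
    (by
      intro x hx hxr z y
      rw [mem_insert, mem_singleton, not_or] at hxr
      show K1 _ ^ 2 = _
      rw [hK1i x hxr.1 hxr.2 z y])
  have h2 := int_kern_sq_le μ hU hD p ham (fun v hv x y => rfl)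
    (fun v hv x y => rfl) β (fun v _ => hβ v) (fun v _ _ s => hh1 v s)
  rw [hp] at h2
  have h3 : (X \ {a, m}).card = X.card - 2 := by
    rw [card_sdiff_of_subset (by
      intro y hy
      rcases mem_insert.mp hy with rfl | hy
      · exact haX
      · rw [mem_singleton.mp hy]; exact hmX), card_pair ham]
  rw [h3] at h1
  exact h1.trans (mul_le_mul_of_nonneg_left h2 (pow_nonneg hκ0 _))

/-- a mark at `b` and one clean arc with `k` edges from `a` to `m` -/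
theorem mark_path (hU : Good U 1) (hκ0 : 0 ≤ κ) (hκ : ∀ s, ∫ t, |two U s t| ∂μ ≤ κ)
    (hp : p.length + 1 = k) (nd : p.Nodup) (ham : a ≠ m)
    (haX : a ∈ X) (hmX : m ∈ X) (hbX : b ∈ X) (hpX : ∀ v ∈ p, v ∉ X)
    (hF : ∀ e ∈ F, ∀ v ∈ e, v ∈ X)
    (hr1 : ∀ x ∈ X, ∃ r ∈ ({a, m} : Finset V), (gr F).Reachable r x)
    (hr2 : ∀ x ∈ X, (gr F).Reachable b x)
    (hh : ∀ v, BM (h v)) (hβ : ∀ v, 0 < β v) (hh1 : ∀ v s, |h v s| ≤ β v) (hg : BM g)
    (hR : BM R) (hC0 : 0 ≤ C) (hC : ∀ z, |R z| ≤ C) (hRi : ∀ u ∈ p, Ind u R) :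
    |∫ z, pathProd U (fun v _ y => h v y) a p m z *
        (g (z b) * (wt U F z * R z)) ∂(piM V μ)| ≤
      (p.map β).prod * C * (√(κ ^ (X.card - 2) * ck μ U k) *
        √(κ ^ (X.card - 1) * ∫ s, g s ^ 2 ∂μ)) := by
  have hgb : BM (fun z : V → Ω => g (z b)) := hg.comp (measurable_pi_apply b)
  have hD : ∀ v, BM (fun r : (V → Ω) × Ω => h v r.2) := fun v =>
    (hh v).comp (g := fun r : (V → Ω) × Ω => r.2) measurable_snd
  rw [path_kern μ hU nd ham haX hmX hpX hF hh hgb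
    (fun u hu z y => by
      show g (Function.update z u y b) = g (z b)
      rw [Function.update_of_ne (fun e : b = u => hpX u hu (e ▸ hbX))]) hR hRi]
  have h1 := kern_sq μ hU hκ0 hκ hp ham haX hmX hF hr1 hh hβ hh1
  have h2 := mark_sq μ hU hκ0 hκ hbX hF hr2 hg
  have hb : 0 ≤ (p.map β).prod := List.prod_nonneg (by
    intro a ha
    rw [List.mem_map] at ha
    obtain ⟨v, _, rfl⟩ := ha
    exact (hβ v).le)
  have hK1bm : BM (fun x : V → Ω => kern μ (two U) (p.map h) (x a) (x m)) :=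
    (bm_kern μ hU (D := fun v _ y => h v y) hD p).comp
      (g := fun x : V → Ω => (x, (x a, x m))) (by fun_prop)
  refine (cs_weight μ hK1bm hgb (hU.bm_wt F) hR hC0 hC h1 h2).trans (le_of_eq ?_)
  have e : κ ^ (X.card - 2) * ((p.map β).prod ^ 2 * ck μ U k) =
      (p.map β).prod ^ 2 * (κ ^ (X.card - 2) * ck μ U k) := by ring
  rw [e, Real.sqrt_mul (sq_nonneg _), Real.sqrt_sq hb]
  ring

/-- a mark and one clean arc, arithmetic form -/
theorem mark_path_am (hU : Good U 1) (hκ0 : 0 ≤ κ) (hκ : ∀ s, ∫ t, |two U s t| ∂μ ≤ κ)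
    (hp : p.length + 1 = k) (nd : p.Nodup) (ham : a ≠ m)
    (haX : a ∈ X) (hmX : m ∈ X) (hbX : b ∈ X) (hpX : ∀ v ∈ p, v ∉ X)
    (hF : ∀ e ∈ F, ∀ v ∈ e, v ∈ X)
    (hr1 : ∀ x ∈ X, ∃ r ∈ ({a, m} : Finset V), (gr F).Reachable r x)
    (hr2 : ∀ x ∈ X, (gr F).Reachable b x)
    (hh : ∀ v, BM (h v)) (hβ : ∀ v, 0 < β v) (hh1 : ∀ v s, |h v s| ≤ β v) (hg : BM g)
    (hR : BM R) (hC0 : 0 ≤ C) (hC : ∀ z, |R z| ≤ C) (hRi : ∀ u ∈ p, Ind u R)
    {t : ℝ} (ht : 0 < t) :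
    |∫ z, pathProd U (fun v _ y => h v y) a p m z *
        (g (z b) * (wt U F z * R z)) ∂(piM V μ)| ≤
      (p.map β).prod * C * (1 / 2 * (t * (κ ^ (X.card - 2) * ck μ U k) +
        t⁻¹ * (κ ^ (X.card - 1) * ∫ s, g s ^ 2 ∂μ))) := by
  have hgb : BM (fun z : V → Ω => g (z b)) := hg.comp (measurable_pi_apply b)
  have hD : ∀ v, BM (fun r : (V → Ω) × Ω => h v r.2) := fun v =>
    (hh v).comp (g := fun r : (V → Ω) × Ω => r.2) measurable_snd
  rw [path_kern μ hU nd ham haX hmX hpX hF hh hgb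
    (fun u hu z y => by
      show g (Function.update z u y b) = g (z b)
      rw [Function.update_of_ne (fun e : b = u => hpX u hu (e ▸ hbX))]) hR hRi]
  have h1 := kern_sq μ hU hκ0 hκ hp ham haX hmX hF hr1 hh hβ hh1
  have h2 := mark_sq μ hU hκ0 hκ hbX hF hr2 hg
  have hb : 0 < (p.map β).prod := List.prod_pos (by
    intro a ha
    rw [List.mem_map] at ha
    obtain ⟨v, _, rfl⟩ := ha
    exact hβ v)
  have hK1bm : BM (fun x : V → Ω => kern μ (two U) (p.map h) (x a) (x m)) :=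
    (bm_kern μ hU (D := fun v _ y => h v y) hD p).comp
      (g := fun x : V → Ω => (x, (x a, x m))) (by fun_prop)
  refine (am_weight μ hK1bm hgb (hU.bm_wt F) hR hC0 hC h1 h2
    (t := t / (p.map β).prod) (div_pos ht hb)).trans (le_of_eq ?_)
  have h3 := hb.ne'
  have h4 := ht.ne'
  rw [inv_div]
  set P := (p.map β).prod
  field_simp

end path

end Vale.Agent.P050.R2.H559.Marks
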