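import Vale.Agent.P050.R2.H559.Zero
import Vale.Agent.P050.R2.H602.JJ

set_option linter.all false

/-!
Dense targets, M5e: the bounds of the activities from the path expansion.
-/

open MeasureTheory Finset

namespace Vale.Agent.P050.Dense

open Vale.Agent.P050

section bounds

variable {V : Type*} [Fintype V] [DecidableEq V] {Ω : Type*} [MeasurableSpace Ω]
variable (μ : Measure Ω) [IsProbabilityMeasure μ] {U : Sym2 Ω → ℝ} {κ η : ℝ}

/-- M5e: polymer bound -/
theorem phi_bound {N : V → Finset V} {B γ : Finset V} {D : ℕ} (hN : Bip N B D)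
    (hU : Ker μ U κ η) {σ : ℝ} (hn : Num D κ η σ) (hσ : 0 < σ)
    (hγ : γ ⊆ B) (hne : γ.Nonempty) {k : ℕ} (hk : 2 ≤ k) (hg : GC N γ k) :
    |phi μ U N γ| ≤ (2 * D ^ 2) ^ k * σ ^ (γ.card - k) * ck μ U k := by
  obtain ⟨b, hb⟩ := hne
  obtain ⟨o, ho⟩ : ∃ o : V → ℕ, Function.Injective o :=
    ⟨fun v => (Fintype.equivFin V v : ℕ), fun u v h =>
      (Fintype.equivFin V).injective (Fin.ext h)⟩
  set K : ℝ := 2 ^ k * σ ^ (γ.card - k) * ck μ U k with hKd
  have hK : 0 ≤ K := by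
    have := ck_nonneg μ (U := U) k
    positivity
  have hD : (0 : ℝ) ≤ D := Nat.cast_nonneg D
  have hterm : ∀ a₀ ∈ N b, ∀ a ∈ (N b).filter (fun a => o a < o a₀),
      |∫ z, JJ μ U N o false γ a₀ [(b, a)] z ∂(piM V μ)| ≤ ((D : ℝ) ^ 2) ^ (k - 1) * K := by
    intro a₀ ha₀ a ha
    have ha₀B : a₀ ∉ B := hN.out b (hγ hb) a₀ ha₀
    obtain ⟨ha1, ha2⟩ := mem_filter.1 ha
    refine iter_le hN hγ (a₀ := a₀) (fun L => ∫ z, JJ μ U N o false γ a₀ L z ∂(piM V μ)) hK 1 k
      ?_ ?_ (k - 1) [(b, a)] ?_ ?_ ?_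
    · intro L hL h1 h2
      have := expand_step μ hN hU hγ ho hk hg (fl := false) (g := fun _ => 1) (BM.const 1)
        (by simp) ha₀B hL (by omega) (Or.inr (by rintro rfl; simp at h1)) (by simp)
      simpa only [one_mul] using this
    · intro L hL h1
      exact JJ_bound2 μ hN hU hn hσ hγ ho hk hg ha₀B hL h1
    · exact ⟨trivial, hb, by simp [Bs], ha₀, ha1, fun h => by
        subst h; exact lt_irrefl _ ha2⟩
    · simp
    · simp only [List.length_cons, List.length_nil]; omega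
  rw [expand_first μ hN hU hγ ho hb]
  have hcard : ((N b).card : ℝ) ≤ D := by exact_mod_cast hN.dB b (hγ hb)
  calc _ ≤ ∑ a₀ ∈ N b, |∑ a ∈ (N b).filter (fun a => o a < o a₀),
        ∫ z, JJ μ U N o false γ a₀ [(b, a)] z ∂(piM V μ)| := abs_sum_le_sum_abs _ _
    _ ≤ ∑ _a₀ ∈ N b, D * (((D : ℝ) ^ 2) ^ (k - 1) * K) := by
        refine sum_le_sum fun a₀ ha₀ => ?_
        calc _ ≤ ∑ a ∈ (N b).filter (fun a => o a < o a₀),
              |∫ z, JJ μ U N o false γ a₀ [(b, a)] z ∂(piM V μ)| := abs_sum_le_sum_abs _ _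
          _ ≤ ∑ _a ∈ (N b).filter (fun a => o a < o a₀), ((D : ℝ) ^ 2) ^ (k - 1) * K :=
              sum_le_sum fun a ha => hterm a₀ ha₀ a ha
          _ = ((N b).filter (fun a => o a < o a₀)).card * (((D : ℝ) ^ 2) ^ (k - 1) * K) := by
              rw [sum_const, nsmul_eq_mul]
          _ ≤ D * (((D : ℝ) ^ 2) ^ (k - 1) * K) := by
              refine mul_le_mul_of_nonneg_right ?_ (by positivity)
              exact_mod_cast (card_le_card (filter_subset _ _)).trans (hN.dB b (hγ hb))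
    _ = (N b).card * (D * (((D : ℝ) ^ 2) ^ (k - 1) * K)) := by rw [sum_const, nsmul_eq_mul]
    _ ≤ D * (D * (((D : ℝ) ^ 2) ^ (k - 1) * K)) :=
        mul_le_mul_of_nonneg_right hcard (by positivity)
    _ = ((D : ℝ) ^ 2) ^ k * K := by
        obtain ⟨m, rfl⟩ : ∃ m, k = m + 1 := ⟨k - 1, by omega⟩
        rw [Nat.add_sub_cancel, pow_succ' ((D : ℝ) ^ 2) m]
        ring
    _ = (2 * D ^ 2) ^ k * σ ^ (γ.card - k) * ck μ U k := by
        rw [hKd, mul_pow 2 ((D : ℝ) ^ 2) k]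
        ring

end bounds

end Vale.Agent.P050.Dense
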