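import Vale.Agent.P050.R2.H559.Zero
import Vale.Agent.P050.R2.H612.JJ1

set_option linter.all false

/-!
Dense targets, M5f: the bounds of the activities from the path expansion.
-/

open MeasureTheory Finset

namespace Vale.Agent.P050.Dense

open Vale.Agent.P050

section bounds

variable {V : Type*} [Fintype V] [DecidableEq V] {Ω : Type*} [MeasurableSpace Ω]
variable (μ : Measure Ω) [IsProbabilityMeasure μ] {U : Sym2 Ω → ℝ} {κ η : ℝ}

/-- M5f: polymer bound with a marked vertex -/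
theorem phig_bound {N : V → Finset V} {B γ : Finset V} {D : ℕ} (hN : Bip N B D)
    (hU : Ker μ U κ η) {σ : ℝ} (hn : Num D κ η σ) (hσ : 0 < σ)
    (hγ : γ ⊆ B) {k : ℕ} (hk : 2 ≤ k) (hg : GC N γ k) {g : Ω → ℝ} (hgm : BM g)
    (hg0 : ∫ s, g s ∂μ = 0) {a : V} (ha : a ∉ B) :
    |phig μ U N g a γ| ≤ (2 * D ^ 2) ^ ((k + 1) / 2) * σ ^ (γ.card - (k + 1) / 2) *
      Real.sqrt (ck μ U k) * Real.sqrt (∫ s, g s ^ 2 ∂μ) := by
  obtain ⟨o, ho⟩ : ∃ o : V → ℕ, Function.Injective o :=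
    ⟨fun v => (Fintype.equivFin V v : ℕ), fun u v h =>
      (Fintype.equivFin V).injective (Fin.ext h)⟩
  set n : ℕ := (k + 1) / 2 with hnd
  set K : ℝ := 2 ^ n * σ ^ (γ.card - n) * Real.sqrt (ck μ U k) * Real.sqrt (∫ s, g s ^ 2 ∂μ)
    with hKd
  have hK : 0 ≤ K := by positivity
  rw [phig_eq_JJ μ N o g a γ]
  have := iter_le hN hγ (a₀ := a)
    (fun L => ∫ z, g (z a) * JJ μ U N o true γ a L z ∂(piM V μ)) hK 0 n
    (fun L hL _ h2 => expand_step μ hN hU hγ ho hk hg hgm (fun _ => hg0) ha hL (by omega)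
      (Or.inl rfl) (fun _ => by omega))
    (fun L hL h1 => JJ_bound1 μ hN hU hn hσ hγ ho hk hg hgm ha hL h1)
    n [] trivial (le_refl 0) (by simp)
  refine this.trans (le_of_eq ?_)
  rw [hKd, mul_pow 2 ((D : ℝ) ^ 2) n]
  ring

end bounds

end Vale.Agent.P050.Dense
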