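import Vale.Agent.P050.R2.H300.Path

set_option linter.all false

/-!
Dense targets, M5e-g: iteration of the double steps.
-/

open MeasureTheory Finset

namespace Vale.Agent.P050.Dense

open Vale.Agent.P050

section iter

variable {V : Type*} [Fintype V] [DecidableEq V]

/-- one double step has at most `D ^ 2` successors -/
theorem step_le {N : V → Finset V} {B γ : Finset V} {D : ℕ} (hN : Bip N B D) (hγ : γ ⊆ B)
    (F : V → V → ℝ) {K : ℝ} (hK : 0 ≤ K) (S : Finset V) (v : V)
    (h : ∀ b ∈ (γ \ S).filter (fun b => v ∈ N b), ∀ a ∈ (N b).erase v, |F b a| ≤ K) :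
    |∑ b ∈ (γ \ S).filter (fun b => v ∈ N b), ∑ a ∈ (N b).erase v, F b a| ≤ (D : ℝ) ^ 2 * K := by
  have hD : (0 : ℝ) ≤ D := Nat.cast_nonneg D
  have h1 : ∀ b ∈ (γ \ S).filter (fun b => v ∈ N b), |∑ a ∈ (N b).erase v, F b a| ≤ D * K := by
    intro b hb
    have hbB : b ∈ B := hγ (mem_sdiff.1 (mem_filter.1 hb).1).1
    calc |∑ a ∈ (N b).erase v, F b a| ≤ ∑ a ∈ (N b).erase v, |F b a| := abs_sum_le_sum_abs _ _
      _ ≤ ∑ _a ∈ (N b).erase v, K := sum_le_sum fun a ha => h b hb a ha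
      _ = ((N b).erase v).card * K := by rw [sum_const, nsmul_eq_mul]
      _ ≤ D * K := by
          refine mul_le_mul_of_nonneg_right ?_ hK
          exact_mod_cast (card_le_card (erase_subset _ _)).trans (hN.dB b hbB)
  calc _ ≤ ∑ b ∈ (γ \ S).filter (fun b => v ∈ N b), |∑ a ∈ (N b).erase v, F b a| :=
        abs_sum_le_sum_abs _ _
    _ ≤ ∑ _b ∈ (γ \ S).filter (fun b => v ∈ N b), D * K := sum_le_sum h1
    _ = ((γ \ S).filter (fun b => v ∈ N b)).card * (D * K) := by rw [sum_const, nsmul_eq_mul]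
    _ ≤ D * (D * K) := by
        refine mul_le_mul_of_nonneg_right ?_ (mul_nonneg hD hK)
        have : (γ \ S).filter (fun b => v ∈ N b) ⊆ B.filter (fun b => v ∈ N b) :=
          filter_subset_filter _ (sdiff_subset.trans hγ)
        exact_mod_cast (card_le_card this).trans (hN.dA v)
    _ = (D : ℝ) ^ 2 * K := by ring

/-- iteration of the double steps -/
theorem iter_le {N : V → Finset V} {B γ : Finset V} {D : ℕ} (hN : Bip N B D) (hγ : γ ⊆ B)
    {a₀ : V} (F : List (V × V) → ℝ) {K : ℝ} (hK : 0 ≤ K) (i n : ℕ)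
    (hstep : ∀ L, Pth N γ a₀ L → i ≤ L.length → L.length < n →
      F L = ∑ b ∈ (γ \ Bs L).filter (fun b => lastA a₀ L ∈ N b),
        ∑ a ∈ (N b).erase (lastA a₀ L), F ((b, a) :: L))
    (hend : ∀ L, Pth N γ a₀ L → L.length = n → |F L| ≤ K) :
    ∀ m : ℕ, ∀ L, Pth N γ a₀ L → i ≤ L.length → L.length + m = n →
      |F L| ≤ ((D : ℝ) ^ 2) ^ m * K := by
  intro m
  induction m with
  | zero =>
    intro L hL _ hn
    rw [pow_zero, one_mul]
    exact hend L hL (by simpa using hn)
  | succ m ih =>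
    intro L hL hi hn
    rw [hstep L hL hi (by omega), pow_succ', mul_assoc]
    refine step_le hN hγ (fun b a => F ((b, a) :: L)) (by positivity) (Bs L) (lastA a₀ L) ?_
    intro b hb a ha
    obtain ⟨hb1, hb2⟩ := mem_filter.1 hb
    obtain ⟨hb3, hb4⟩ := mem_sdiff.1 hb1
    refine ih ((b, a) :: L) ⟨hL, hb3, hb4, hb2, mem_of_mem_erase ha, ne_of_mem_erase ha⟩ ?_ ?_
    · simp only [List.length_cons]; omega
    · simp only [List.length_cons]; omega

/-- the vertices of a path are different, so it is not longer than `γ` -/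
theorem Pth.card {N : V → Finset V} {γ : Finset V} {a₀ : V} :
    ∀ {L : List (V × V)}, Pth N γ a₀ L → Bs L ⊆ γ ∧ (Bs L).card = L.length
  | [], _ => ⟨by simp [Bs], by simp [Bs]⟩
  | (b, a) :: L, h => by
    obtain ⟨h1, h2, h3, -⟩ := h
    obtain ⟨h4, h5⟩ := Pth.card h1
    have e : Bs ((b, a) :: L) = insert b (Bs L) := by
      unfold Bs; simp
    rw [e]
    refine ⟨insert_subset h2 h4, ?_⟩
    rw [card_insert_of_notMem h3, h5, List.length_cons]

end iter

end Vale.Agent.P050.Dense
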