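import Vale.Agent.P050.R2.H300.Defs

set_option linter.all false

/-!
Telescoping of products along an injective numbering.
-/

open Finset

namespace Vale.Agent.P050.Dense

variable {ι : Type*} {R : Type*}

theorem prod_add_ord [CommSemiring R] (s : Finset ι) {o : ι → ℕ} (ho : Function.Injective o)
    (f g : ι → R) :
    ∏ i ∈ s, (f i + g i) = ∏ i ∈ s, f i +
      ∑ i ∈ s, g i * (∏ j ∈ s.filter (fun j => o j < o i), (f j + g j)) *
        ∏ j ∈ s.filter (fun j => o i < o j), f j := by
  letI := LinearOrder.lift' o ho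
  rw [Finset.prod_add_ordered s f g]
  rfl

theorem prod_one_add_ord [CommSemiring R] (s : Finset ι) {o : ι → ℕ}
    (ho : Function.Injective o) (u : ι → R) :
    ∏ i ∈ s, (1 + u i) = 1 + ∑ i ∈ s, u i * ∏ j ∈ s.filter (fun j => o j < o i), (1 + u j) := by
  rw [prod_add_ord s ho (fun _ => 1) u]
  simp only [prod_const_one, mul_one]

theorem prod_ord [CommRing R] (s : Finset ι) {o : ι → ℕ} (ho : Function.Injective o)
    (f g : ι → R) :
    ∏ i ∈ s, f i = ∏ i ∈ s, g i +
      ∑ i ∈ s, (f i - g i) * (∏ j ∈ s.filter (fun j => o j < o i), f j) *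
        ∏ j ∈ s.filter (fun j => o i < o j), g j := by
  have := prod_add_ord s ho g (fun i => f i - g i)
  simpa only [add_sub_cancel] using this

end Vale.Agent.P050.Dense
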