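import Vale.Agent.P050.R2.H322.TwoD

set_option linter.all false

/-!
Dense targets, phase 2: polymers with a cycle of length `4`, in the form `¬ GC N γ 3`.
-/

open MeasureTheory Finset

namespace Vale.Agent.P050.Dense

open Vale.Agent.P050

section graph

variable {V : Type*} [Fintype V] [DecidableEq V]

/-- all cycles have length at least `4` -/
theorem gc_two {N : V → Finset V} {B γ : Finset V} {D : ℕ} (hN : Bip N B D) (hγ : γ ⊆ B) :
    GC N γ 2 := by
  intro v c hc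
  have h1 := H15.two_card_sideB hN hγ c hc
  have h3 : 3 ≤ c.length := hc.three_le_length
  omega

/-- two vertices with two common neighbours form a cycle polymer -/
theorem cycP_pair {N : V → Finset V} {B : Finset V} {D : ℕ} (hN : Bip N B D) {b b' : V}
    (hb : b ∈ B) (hb' : b' ∈ B) (hne : b ≠ b') (h : 2 ≤ (N b ∩ N b').card) :
    CycP N {b, b'} 2 := H322.cycP_pair hN hb hb' hne h

/-- the cycle polymers with two vertices -/
theorem CycP.pair {N : V → Finset V} {B C : Finset V} {D : ℕ} (hN : Bip N B D) (hC : C ⊆ B)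
    (h : CycP N C 2) :
    ∃ b b', b ≠ b' ∧ C = {b, b'} ∧ 2 ≤ (N b ∩ N b').card := H322.pair_of_cycP hN hC h

/-- a cycle of length `4` gives a cycle polymer with two vertices -/
theorem exists_cycP_two {N : V → Finset V} {B γ : Finset V} {D : ℕ} (hN : Bip N B D)
    (hγ : γ ⊆ B) (h : ¬ GC N γ 3) : ∃ C ⊆ γ, CycP N C 2 := by
  unfold GC at h
  push Not at h
  obtain ⟨v, c, hc, hl⟩ := h
  have hna : ¬ (HG N γ).IsAcyclic := fun h1 => h1 c hc
  obtain ⟨k, C, hC, hCyc, hg⟩ := exists_cycP hN hγ hna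
  have h2 := hCyc.1
  have h3 := hg v c hc
  have hk : k = 2 := by omega
  subst hk
  exact ⟨C, hC, hCyc⟩

/-- without two vertices with two common neighbours all cycles have length at least `6` -/
theorem gc_three {N : V → Finset V} {B γ : Finset V} {D : ℕ} (hN : Bip N B D) (hγ : γ ⊆ B)
    (h : ¬ ∃ b ∈ γ, ∃ b' ∈ γ, b ≠ b' ∧ 2 ≤ (N b ∩ N b').card) : GC N γ 3 := by
  by_contra h4
  obtain ⟨C, hC, hCyc⟩ := exists_cycP_two hN hγ h4
  obtain ⟨b, b', hne, rfl, h2⟩ := H322.pair_of_cycP hN (hC.trans hγ) hCyc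
  exact h ⟨b, hC (by simp), b', hC (by simp), hne, h2⟩

end graph

section kernel

variable {V : Type*} [Fintype V] [DecidableEq V] {Ω : Type*} [MeasurableSpace Ω]
variable (μ : Measure Ω) [IsProbabilityMeasure μ] {U : Sym2 Ω → ℝ} {κ η : ℝ}

/-- **polymers with a cycle of length `4`** -/
theorem phi_two {N : V → Finset V} {B γ : Finset V} {D : ℕ} (hN : Bip N B D)
    (hU : Ker μ U κ η) {σ : ℝ} (hn : Num D κ η σ) (hγ : γ ⊆ B) (h : ¬ GC N γ 3) :
    ∃ C ⊆ γ, CycP N C 2 ∧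
      |phi μ U N γ| ≤ 8 * (γ.card : ℝ) ^ 2 * σ ^ (γ.card - 2) * phi μ U N C := by
  obtain ⟨C₀, hC₀, hC⟩ := exists_cycP_two hN hγ h
  obtain ⟨C, h1, h2, h3⟩ := phi_two_cyc μ hN hU hn hγ hC₀ hC
  exact ⟨C, h1, h2, h3⟩

/-- **polymers with a cycle of length `4` and a marked vertex** -/
theorem phig_two {N : V → Finset V} {B γ : Finset V} {D : ℕ} (hN : Bip N B D)
    (hU : Ker μ U κ η) {σ : ℝ} (hn : Num D κ η σ) (hγ : γ ⊆ B) (h : ¬ GC N γ 3)
    {g : Ω → ℝ} (hgm : BM g) (hg0 : ∫ s, g s ∂μ = 0) {a : V} (ha : a ∉ B) :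
    ∃ C ⊆ γ, CycP N C 2 ∧
      |phig μ U N g a γ| ≤ 8 * (γ.card : ℝ) ^ 2 * κ * σ ^ (γ.card - 2) *
        Real.sqrt (phi μ U N C) * Real.sqrt (∫ s, g s ^ 2 ∂μ) := by
  obtain ⟨C₀, hC₀, hC⟩ := exists_cycP_two hN hγ h
  obtain ⟨C, h1, h2, h3⟩ := phig_two_cyc μ hN hU hn hγ hC₀ hC hgm hg0 ha
  exact ⟨C, h1, h2, h3⟩

end kernel

end Vale.Agent.P050.Dense
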