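import Vale.Agent.P050.R2.H559.Iter
import Vale.Agent.P050.R2.H928.Expand

set_option linter.all false

/-!
Dense targets, M5g: no cycle, no contribution.
-/

open MeasureTheory Finset

namespace Vale.Agent.P050.Dense

open Vale.Agent.P050

section bounds

variable {V : Type*} [Fintype V] [DecidableEq V] {Ω : Type*} [MeasurableSpace Ω]
variable (μ : Measure Ω) [IsProbabilityMeasure μ] {U : Sym2 Ω → ℝ} {κ η : ℝ}

/-- the marked activity as the empty path -/
theorem phig_eq_JJ (N : V → Finset V) (o : V → ℕ) (g : Ω → ℝ) (a : V) (γ : Finset V) :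
    phig μ U N g a γ = ∫ z, g (z a) * JJ μ U N o true γ a [] z ∂(piM V μ) := by
  unfold phig JJ
  refine integral_congr_ae (Filter.Eventually.of_forall fun z => ?_)
  simp only [core, one_mul, Bs, List.map_nil, List.toFinset_nil, sdiff_empty, rem]

/-- M5g: no cycle, no contribution -/
theorem phig_eq_zero {N : V → Finset V} {B γ : Finset V} {D : ℕ} (hN : Bip N B D)
    (hU : Ker μ U κ η) (hγ : γ ⊆ B) (hac : (HG N γ).IsAcyclic) {g : Ω → ℝ} (hgm : BM g)
    (hg0 : ∫ s, g s ∂μ = 0) {a : V} (ha : a ∉ B) : phig μ U N g a γ = 0 := by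
  obtain ⟨o, ho⟩ : ∃ o : V → ℕ, Function.Injective o :=
    ⟨fun v => (Fintype.equivFin V v : ℕ), fun u v h =>
      (Fintype.equivFin V).injective (Fin.ext h)⟩
  have hg : GC N γ (2 * γ.card + 2) := fun v c hc => absurd hc (hac c)
  rw [phig_eq_JJ μ N o g a γ]
  have := iter_le hN hγ (a₀ := a)
    (fun L => ∫ z, g (z a) * JJ μ U N o true γ a L z ∂(piM V μ)) (le_refl (0 : ℝ)) 0
    (γ.card + 1)
    (fun L hL _ h2 => expand_step μ hN hU hγ ho (by omega) hg hgm (fun _ => hg0) ha hL
      (by omega) (Or.inl rfl) (fun _ => by omega))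
    (fun L hL h1 => by
      obtain ⟨h2, h3⟩ := Pth.card hL
      have := card_le_card h2
      omega)
    (γ.card + 1) [] trivial (le_refl 0) (by simp)
  simpa using this

end bounds

end Vale.Agent.P050.Dense
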